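import Vale.Agent.P325.H111.K2.Stmts

/-!
# Energy, displacement and significant groups of assignments at a window
-/

namespace Vale.Agent.P325.K2

open Finset Vale.Agent.Lib.PCP Vale.Agent.P342

section

variable {n N r L : ℕ}

/-- The fine group of a bit which is addressed by the label tuple `ν`. -/
def gvf (π : Win n N → Fin r → Fin r) (c : Win n N) (ν : Lab n N r) : Option (Lab n N r) :=
  some fun b => if b = c ∨ Dj b c then ν b else π b (ν b)

theorem fgrp_adr (π : Win n N → Fin r → Fin r) (c : Win n N) (ν : Lab n N r) (k : Fin n)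
    (i : Fin (L * L)) : fgrp π c ((k, adr π c ν k, i) : Bt n L (Key n N r)) = gvf π c ν := by
  have h1 : fgrp π c ((k, adr π c ν k, i) : Bt n L (Key n N r)) =
      some fun b => if b k = c k ∧ b ≠ c then
        π b (if b k = c k ∨ Dj b c then ν b else π b (ν b))
        else (if b k = c k ∨ Dj b c then ν b else π b (ν b)) := by
    show (if (c k : Fin N) = c k then _ else _) = _
    rw [if_pos rfl]
    rfl
  rw [h1, gvf]
  refine congrArg some ?_
  funext b
  by_cases hbc : b = c
  · subst hbc
    rw [if_neg (fun h => h.2 rfl), if_pos (Or.inl rfl), if_pos (Or.inl rfl)]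
  · by_cases hk : b k = c k
    · have hd : ¬ Dj b c := fun h => h k hk
      rw [if_pos ⟨hk, hbc⟩, if_pos (Or.inl hk), if_neg]
      rintro (h | h)
      · exact hbc h
      · exact hd h
    · rw [if_neg (fun h => hk h.1)]
      by_cases hd : Dj b c
      · rw [if_pos (Or.inr hd), if_pos (Or.inr hd)]
      · rw [if_neg, if_neg]
        · rintro (h | h)
          · exact hbc h
          · exact hd h
        · rintro (h | h)
          · exact hk h
          · exact hd h

theorem winThm (hE : EnergyThm) (hD : DispThm) : WinThm := by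
  intro n N r L _ _ _ _ A e c a
  refine ⟨?_, ?_⟩
  · exact hE n L (Key n N r) (Lab n N r) (Option (Lab n N r)) (A c (qst c e)) (adr (prj e) c)
      (fgrp (prj e) c) (gvf (prj e) c) (fun ν k i => fgrp_adr (prj e) c ν k i) a
  · intro a' haa
    exact hD n L (Key n N r) (Lab n N r) (A c (qst c e)) (adr (prj e) c) a a' haa

/-- The value of a table depends only on the bits at the legs of the window. -/
theorem tbl_congr [NeZero n] [NeZero L] (π : Win n N → Fin r → Fin r) (c : Win n N)
    (a : Fin n → Fin L) (y y' : Sd n N r L) (h : ∀ i : Bt n L (Key n N r), i.2.1.1 = c i.1 →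
      y i = y' i) : tbl a y (adr π c) = tbl a y' (adr π c) := by
  funext ν
  have hS : Ssum a y (adr π c ν) = Ssum a y' (adr π c ν) := by
    unfold Ssum
    refine Finset.sum_congr rfl fun k _ => ?_
    have : (fun i => y (k, adr π c ν k, i)) = fun i => y' (k, adr π c ν k, i) := by
      funext i
      exact h (k, adr π c ν k, i) rfl
    rw [this]
  unfold tbl tbit
  rw [hS, h (slot0 a, adr π c ν (slot0 a), 0) rfl]

theorem isSign_FF [NeZero n] [NeZero L] {K V : Type} (Φ : (V → Bool) → Bool)
    (ad : V → Fin n → K) (a : Fin n → Fin L) : IsSign (FF (L := L) Φ ad a) := by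
  intro y
  unfold FF sg
  cases Φ (tbl a y ad)
  · exact Or.inr rfl
  · exact Or.inl rfl

/-- The coarse group which contains a fine group. -/
def coarse (π : Win n N → Fin r → Fin r) (c : Win n N) (g : Lab n N r) : Lab n N r :=
  fun b => if b = c then π b (g b) else g b

theorem cgrp_of_fgrp (π : Win n N → Fin r → Fin r) (c : Win n N) (i : Bt n L (Key n N r))
    (g : Lab n N r) (h : fgrp π c i = some g) : cgrp π i = coarse π c g := by
  unfold fgrp at h
  split_ifs at h with h1
  have h2 := Option.some.inj h
  subst h2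
  funext b
  unfold cgrp coarse
  rw [h1]
  show (if b i.1 = c i.1 then π b (i.2.1.2 b) else i.2.1.2 b) = if b = c then
    π b (if b i.1 = c i.1 ∧ b ≠ c then π b (i.2.1.2 b) else i.2.1.2 b) else
    (if b i.1 = c i.1 ∧ b ≠ c then π b (i.2.1.2 b) else i.2.1.2 b)
  by_cases hbc : b = c
  · subst hbc
    rw [if_pos rfl, if_pos rfl, if_neg (fun h => h.2 rfl)]
  · rw [if_neg hbc]
    by_cases hk : b i.1 = c i.1
    · rw [if_pos hk, if_pos ⟨hk, hbc⟩]
    · rw [if_neg hk, if_neg (fun h => hk h.1)]

theorem sigThm (hM : MonoThm) (hI : IrrThm) (hO : OddThm) (hF : OddFF) : SigThm := by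
  intro n N r L _ _ _ _ E τ hS A hA e c a hen
  by_contra hcon
  push Not at hcon
  have hsign : IsSign (Fz A e c a) := isSign_FF _ _ _
  have hodd : ∀ y, Fz A e c a (fun i => !y i) = - Fz A e c a y :=
    hF n L (Key n N r) (Lab n N r) (A c (qst c e)) (adr (prj e) c) a (fun φ => hA c (qst c e) φ)
  have h1 : Inf (Fz A e c a) univ = 1 := hO _ _ hsign hodd
  let W : Finset (Bt n L (Key n N r)) := {i | i.2.1.1 = c i.1}
  have hW : ∀ y y' : Sd n N r L, (∀ i ∈ W, y i = y' i) → Fz A e c a y = Fz A e c a y' := by
    intro y y' h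
    unfold Fz FF
    rw [tbl_congr (prj e) c a y y' fun i hi => h i (Finset.mem_filter.2 ⟨mem_univ _, hi⟩)]
  let H : Finset (Option (Lab n N r)) := {o | o ≠ none}
  have h2 := hS (Bt n L (Key n N r)) (Option (Lab n N r)) (fgrp (prj e) c) (Fz A e c a) hsign hen H
    (by
      intro g hg
      have hg1 : g ≠ none := (Finset.mem_filter.1 hg).2
      obtain ⟨g', rfl⟩ := Option.ne_none_iff_exists'.1 hg1
      refine lt_of_le_of_lt ?_ (hcon (coarse (prj e) c g'))
      unfold sig
      refine (hM _ (Fz A e c a) _ _ ?_).1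
      intro i hi
      rw [Finset.mem_filter] at hi ⊢
      exact ⟨mem_univ _, cgrp_of_fgrp (prj e) c i g' hi.2⟩)
  have h3 := (hI _ (Fz A e c a) W hW univ {i | fgrp (prj e) c i ∈ H} (by
    ext i
    simp only [Finset.mem_inter, Finset.mem_filter, mem_univ, true_and, W, H]
    constructor
    · intro h
      refine ⟨?_, h⟩
      unfold fgrp
      rw [if_pos h]
      exact Option.some_ne_none _
    · exact fun h => h.2)).2
  rw [← h3, h1] at h2
  norm_num at h2

end

end Vale.Agent.P325.K2
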